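import Vale.Agent.P160.Rep

namespace Vale.Agent.Results.P160.Repeated

open Matrix Vale.Agent.P160

/-- Kernel vectors with a frequently repeated absolute value contribute at the rate one half. -/
theorem result {ε η : ℝ} (hε : 0 < ε) (hη : 0 < η) : ∀ᶠ n : ℕ in Filter.atTop,
    prob n (fun A => ∃ v : Fin n → ℝ, v ≠ 0 ∧ A *ᵥ v = 0 ∧ ∃ c : ℝ,
      η * n ≤ ((Finset.univ.filter fun i => |v i| = c).card : ℝ)) ≤ (1 / 2 + ε) ^ n :=
  rep_rate hε hη

end Vale.Agent.Results.P160.Repeated
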