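import Vale.Agent.P160.Main

namespace Vale.Agent.Results.P160.Sparse

open Matrix Vale.Agent.P160

/-- Kernel vectors with few nonzero coordinates contribute at the rate one half. -/
theorem result {ε : ℝ} (hε : 0 < ε) : ∃ δ : ℝ, 0 < δ ∧ ∀ᶠ n : ℕ in Filter.atTop,
    prob n (fun A => ∃ v : Fin n → ℝ, v ≠ 0 ∧ A *ᵥ v = 0 ∧
      ((Finset.univ.filter fun i => v i ≠ 0).card : ℝ) ≤ δ * n) ≤ (1 / 2 + ε) ^ n :=
  sparse_rate hε

end Vale.Agent.Results.P160.Sparse
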